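import Crest.Agent.N49.Rw.Tw

/-!
# Row 49 (helper64): block diagonal matrices
-/

set_option autoImplicit false

open Matrix

noncomputable section

namespace Crest.Agent.N49.Rw.Bk

open Po

variable {ι : Type} {lev : ι → ℕ} {M N : Matrix ι ι ℝ}

theorem tr (h : Blk lev M) : Blk lev Mᵀ := fun i j e => h j i e.symm

variable [Fintype ι]

theorem mul (h : Blk lev M) (h' : Blk lev N) : Blk lev (M * N) := fun i j e => by
  rw [mul_apply]
  refine Finset.sum_eq_zero fun k _ => ?_
  by_cases a : lev i = lev k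
  · rw [h' k j (a ▸ e), mul_zero]
  · rw [h i k a, zero_mul]

theorem sum_sub {p : ι → Prop} [DecidablePred p] (f : ι → ℝ) (h : ∀ i, ¬ p i → f i = 0) :
    ∑ i : {i // p i}, f i = ∑ i, f i := by
  rw [← Finset.sum_subtype (Finset.univ.filter p) (by simp) f, Finset.sum_filter]
  exact Finset.sum_congr rfl fun i _ => by split_ifs with k; exacts [rfl, (h i k).symm]

theorem sub_mul {p : ι → Prop} [DecidablePred p] (hp : ∀ i j, lev i = lev j → p i → p j)
    (h : Blk lev M) (N : Matrix ι ι ℝ) :
    (M * N).submatrix ((↑) : {i // p i} → ι) ((↑) : {i // p i} → ι) =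
      M.submatrix ((↑) : {i // p i} → ι) ((↑) : {i // p i} → ι) * N.submatrix (↑) (↑) := by
  ext i j
  simp only [submatrix_apply, mul_apply]
  exact (sum_sub (fun k => M i k * N k j) fun k hk => by
    rw [h i k fun e => hk (hp _ _ e i.2), zero_mul]).symm

theorem sub_mulVec {p : ι → Prop} [DecidablePred p] (hp : ∀ i j, lev i = lev j → p i → p j)
    (h : Blk lev M) (x : ι → ℝ) :
    M.submatrix ((↑) : {i // p i} → ι) ((↑) : {i // p i} → ι) *ᵥ (fun i => x i) =
      fun i : {i // p i} => (M *ᵥ x) i := by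
  funext i
  simp only [submatrix_apply, mulVec, dotProduct]
  exact sum_sub (fun k => M i k * x k) fun k hk => by
    rw [h i k fun e => hk (hp _ _ e i.2), zero_mul]

variable [DecidableEq ι]

theorem inv (h : Blk lev M) (hM : M.det ≠ 0) : Blk lev M⁻¹ := by
  have := invertibleOfIsUnitDet M (Ne.isUnit hM)
  have h1 : M.BlockTriangular lev := fun i j e => h i j e.ne'
  have h2 : M.BlockTriangular (OrderDual.toDual ∘ lev) := fun i j e =>
    h i j (OrderDual.toDual_lt_toDual.1 e).ne
  intro i j e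
  rcases lt_or_gt_of_ne e with k | k
  · exact blockTriangular_inv_of_blockTriangular h2 (OrderDual.toDual_lt_toDual.2 k)
  · exact blockTriangular_inv_of_blockTriangular h1 k

theorem sub_inv {p : ι → Prop} [DecidablePred p] (hp : ∀ i j, lev i = lev j → p i → p j)
    (h : Blk lev M) (hM : M.det ≠ 0) :
    (M.submatrix ((↑) : {i // p i} → ι) ((↑) : {i // p i} → ι))⁻¹ = M⁻¹.submatrix (↑) (↑) := by
  refine inv_eq_right_inv ?_
  rw [← sub_mul hp h, mul_nonsing_inv _ (Ne.isUnit hM),
    submatrix_one _ Subtype.val_injective]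

theorem det_eq (h : Blk lev M) {s : ℕ} (hs : ∀ i, lev i < s) :
    M.det = ∏ l ∈ Finset.range s, (blk lev M l).det := by
  have h1 : M.BlockTriangular lev := fun i j e => h i j e.ne'
  rw [h1.det]
  refine Finset.prod_subset_one_on_sdiff (fun l k => ?_) (fun l k => ?_) fun l _ => rfl
  · obtain ⟨i, -, rfl⟩ := Finset.mem_image.1 k
    exact Finset.mem_range.2 (hs i)
  · have : IsEmpty (At lev l) := ⟨fun i => (Finset.mem_sdiff.1 k).2
      (Finset.mem_image.2 ⟨i.1, Finset.mem_univ _, i.2⟩)⟩
    exact det_isEmpty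

theorem dt_eq (h : Blk lev M) (hM : M.PosDef) {s : ℕ} (hs : ∀ i, lev i < s) :
    dt M = ∏ l ∈ Finset.range s, dt (blk lev M l) := by
  rw [dt, det_eq h hs, Real.sqrt_prod _ fun l _ => (blk_pd hM l).det_pos.le,
    ← Finset.prod_inv_distrib]
  rfl

omit [DecidableEq ι] in
/-- the quadratic form of a block at a vector supported on the block -/
theorem qf_ext {p : ι → Prop} [DecidablePred p] (M : Matrix ι ι ℝ) (x : ι → ℝ)
    (hx : ∀ i, ¬ p i → x i = 0) :
    qf (M.submatrix ((↑) : {i // p i} → ι) (↑)) (fun i => x i) = qf M x := by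
  rw [qf_sub]
  simp only [qf, dotProduct, mulVec, Finset.mul_sum]
  refine Finset.sum_congr rfl fun i _ => Finset.sum_congr rfl fun j _ => ?_
  by_cases a : p i <;> by_cases b : p j <;> simp [a, b, hx]

end Crest.Agent.N49.Rw.Bk
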