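import Crest.Agent.N49.Rw.Tw
import Crest.Agent.N49.Po.Lin

/-!
# Row 49 (helper65): Schur complements and clone forms
-/

set_option autoImplicit false

open Matrix

noncomputable section

namespace Crest.Agent.N49.Rw

open Po

variable {a b κ : Type} [Fintype a] [Fintype b] [Fintype κ]

/-- the form `qf S u + qf D (v + L u)` -/
def jn (S : Matrix a a ℝ) (D : Matrix b b ℝ) (L : Matrix b a ℝ) : Matrix (a ⊕ b) (a ⊕ b) ℝ :=
  fromBlocks (S + Lᵀ * D * L) (Lᵀ * D) (D * L) D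

theorem qf_blocks (S : Matrix a a ℝ) (D : Matrix b b ℝ) (u : a → ℝ) (v : b → ℝ) :
    qf (fromBlocks S 0 0 D) (Sum.elim u v) = qf S u + qf D v := by
  simp [qf, fromBlocks_mulVec, sumElim_dotProduct_sumElim]

omit [Fintype a] [Fintype b] in
theorem elim_eq {α : Type*} (x : a ⊕ b → α) :
    x = Sum.elim (fun i => x (.inl i)) fun j => x (.inr j) := funext fun i => by cases i <;> rfl

theorem pd_blocks {S : Matrix a a ℝ} {D : Matrix b b ℝ} (hS : S.PosDef) (hD : D.PosDef) :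
    (fromBlocks S 0 0 D).PosDef := by
  refine PosDef.of_dotProduct_mulVec_pos ?_ fun x hx => ?_
  · exact IsHermitian.fromBlocks hS.1 (by simp) hD.1
  · have e := qf_blocks S D (fun i => x (.inl i)) fun j => x (.inr j)
    rw [← elim_eq x] at e
    rw [star_trivial, ← qf, e]
    by_cases h : (fun i => x (.inl i)) = 0
    · have k : (fun j => x (.inr j)) ≠ 0 := fun k => hx (by rw [elim_eq x, h, k]; simp)
      exact add_pos_of_nonneg_of_pos (qf_nonneg hS _) (by simpa [qf] using hD.dotProduct_mulVec_pos k)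
    · exact add_pos_of_pos_of_nonneg (by simpa [qf] using hS.dotProduct_mulVec_pos h) (qf_nonneg hD _)

section
variable [DecidableEq a] [DecidableEq b]

theorem jn_eq (S : Matrix a a ℝ) (D : Matrix b b ℝ) (L : Matrix b a ℝ) :
    jn S D L = (fromBlocks 1 0 L 1)ᵀ * fromBlocks S 0 0 D * fromBlocks 1 0 L 1 := by
  simp [jn, fromBlocks_transpose, fromBlocks_multiply]

theorem sh_mulVec (L : Matrix b a ℝ) (u : a → ℝ) (v : b → ℝ) :
    fromBlocks (1 : Matrix a a ℝ) 0 L 1 *ᵥ Sum.elim u v = Sum.elim u (v + L *ᵥ u) := by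
  simp [fromBlocks_mulVec, add_comm]

theorem det_jn (S : Matrix a a ℝ) (D : Matrix b b ℝ) (L : Matrix b a ℝ) :
    (jn S D L).det = S.det * D.det := by
  rw [jn_eq, det_mul, det_mul, det_transpose]
  simp

theorem dt_jn {S : Matrix a a ℝ} (hS : S.PosDef) (D : Matrix b b ℝ) (L : Matrix b a ℝ) :
    dt (jn S D L) = dt S * dt D := by
  rw [dt, det_jn, Real.sqrt_mul hS.det_pos.le, mul_inv, dt, dt]
end

theorem qf_jn (S : Matrix a a ℝ) (D : Matrix b b ℝ) (L : Matrix b a ℝ) (u : a → ℝ) (v : b → ℝ) :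
    qf (jn S D L) (Sum.elim u v) = qf S u + qf D (v + L *ᵥ u) := by
  classical
  rw [jn_eq, qf_conj, sh_mulVec, qf_blocks]

theorem gs_jn (S : Matrix a a ℝ) (D : Matrix b b ℝ) (L : Matrix b a ℝ) (u : a → ℝ) (v : b → ℝ) :
    gs (jn S D L) (Sum.elim u v) = gs S u * gs D (v + L *ᵥ u) := by
  rw [gs, gs, gs, qf_jn, mul_add, neg_add, Real.exp_add]

theorem pd_jn {S : Matrix a a ℝ} {D : Matrix b b ℝ} (hS : S.PosDef) (hD : D.PosDef)
    (L : Matrix b a ℝ) : (jn S D L).PosDef := by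
  classical
  rw [jn_eq]
  refine posDef_conj (pd_blocks hS hD) (mulVec_injective_iff_isUnit.2 ?_)
  rw [isUnit_iff_isUnit_det, det_fromBlocks_zero₁₂]
  simp

/-- `κ` independent copies of a form -/
def dg (κ : Type) [DecidableEq κ] (D : Matrix b b ℝ) : Matrix (κ × b) (κ × b) ℝ :=
  fun p q => if p.1 = q.1 then D p.2 q.2 else 0

/-- `κ` copies of a linear map -/
def st (κ : Type) (L : Matrix b a ℝ) : Matrix (κ × b) a ℝ := fun p => L p.2

section
variable [DecidableEq κ]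

theorem qf_dg (D : Matrix b b ℝ) (x : κ × b → ℝ) :
    qf (dg κ D) x = ∑ k, qf D fun j => x (k, j) := by
  simp only [qf, dotProduct, mulVec, dg, Fintype.sum_prod_type, ite_mul, zero_mul]
  refine Finset.sum_congr rfl fun k _ => Finset.sum_congr rfl fun j _ => ?_
  rw [Finset.sum_eq_single k (fun l _ h => by simp [h.symm]) (by simp)]
  simp

omit [Fintype b] [Fintype κ] in
theorem dg_eq (D : Matrix b b ℝ) :
    dg κ D = (blockDiagonal fun _ : κ => D).submatrix (Equiv.prodComm κ b) (Equiv.prodComm κ b) := by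
  ext p q
  simp [dg, blockDiagonal_apply]

theorem det_dg [DecidableEq b] (D : Matrix b b ℝ) : (dg κ D).det = D.det ^ Fintype.card κ := by
  rw [dg_eq, det_submatrix_equiv_self, det_blockDiagonal]
  simp

theorem dt_dg [DecidableEq b] {D : Matrix b b ℝ} (hD : D.PosDef) :
    dt (dg κ D) = dt D ^ Fintype.card κ := by
  rw [dt, det_dg, dt, inv_pow]
  congr 1
  rw [Real.sqrt_eq_iff_mul_self_eq (pow_pos hD.det_pos _).le (by positivity), ← mul_pow,
    Real.mul_self_sqrt hD.det_pos.le]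

theorem pd_dg {D : Matrix b b ℝ} (hD : D.PosDef) : (dg κ D).PosDef := by
  refine PosDef.of_dotProduct_mulVec_pos ?_ fun x hx => ?_
  · ext p q
    have := hD.1.apply p.2 q.2
    simp only [star_trivial] at this
    simp [dg, eq_comm, this]
  · rw [star_trivial, ← qf, qf_dg]
    obtain ⟨⟨k, j⟩, h⟩ := Function.ne_iff.1 hx
    exact Finset.sum_pos' (fun l _ => qf_nonneg hD _) ⟨k, Finset.mem_univ _, by
      simpa [qf] using hD.dotProduct_mulVec_pos (x := fun j => x (k, j)) fun e => h (congrFun e j)⟩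
end

section
variable [DecidableEq b]

/-- the conditional mean map -/
def lm (M : Matrix (a ⊕ b) (a ⊕ b) ℝ) : Matrix b a ℝ := M.toBlocks₂₂⁻¹ * M.toBlocks₂₁

/-- the Schur complement: the form of the marginal on `a` -/
def schur (M : Matrix (a ⊕ b) (a ⊕ b) ℝ) : Matrix a a ℝ :=
  M.toBlocks₁₁ - M.toBlocks₁₂ * M.toBlocks₂₂⁻¹ * M.toBlocks₂₁

variable {M : Matrix (a ⊕ b) (a ⊕ b) ℝ}

omit [Fintype a] [Fintype b] [DecidableEq b] in
theorem pd_bb (hM : M.PosDef) : M.toBlocks₂₂.PosDef := hM.submatrix Sum.inr_injective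

omit [Fintype a] [Fintype b] [DecidableEq b] in
theorem tr_ba (hM : M.PosDef) : M.toBlocks₂₁ᵀ = M.toBlocks₁₂ := by
  ext i j
  simpa [toBlocks₂₁, toBlocks₁₂] using hM.1.apply (.inl i) (.inr j)

omit [Fintype a] in
theorem jn_schur (hM : M.PosDef) : jn (schur M) M.toBlocks₂₂ (lm M) = M := by
  have u := (pd_bb hM).det_pos.ne'.isUnit
  have t : M.toBlocks₂₂⁻¹ᵀ = M.toBlocks₂₂⁻¹ := by
    simpa [conjTranspose_eq_transpose_of_trivial] using (pd_bb hM).inv.1.eq
  have e : (lm M)ᵀ * M.toBlocks₂₂ = M.toBlocks₁₂ := by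
    rw [lm, transpose_mul, t, tr_ba hM, Matrix.mul_assoc, nonsing_inv_mul _ u, Matrix.mul_one]
  rw [jn, e, lm, ← Matrix.mul_assoc M.toBlocks₂₂, mul_nonsing_inv _ u, Matrix.one_mul, schur,
    ← Matrix.mul_assoc, sub_add_cancel, fromBlocks_toBlocks]

theorem qf_split (hM : M.PosDef) (u : a → ℝ) (v : b → ℝ) :
    qf M (Sum.elim u v) = qf (schur M) u + qf M.toBlocks₂₂ (v + lm M *ᵥ u) := by
  rw [← qf_jn, jn_schur hM]

theorem gs_split (hM : M.PosDef) (u : a → ℝ) (v : b → ℝ) :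
    gs M (Sum.elim u v) = gs (schur M) u * gs M.toBlocks₂₂ (v + lm M *ᵥ u) := by
  rw [← gs_jn, jn_schur hM]

theorem qf_schur_le (hM : M.PosDef) (u : a → ℝ) (v : b → ℝ) :
    qf (schur M) u ≤ qf M (Sum.elim u v) := by
  rw [qf_split hM]
  exact le_add_of_nonneg_right (qf_nonneg (pd_bb hM) _)

theorem qf_schur (hM : M.PosDef) (u : a → ℝ) :
    qf (schur M) u = qf M (Sum.elim u (-(lm M *ᵥ u))) := by
  rw [qf_split hM, neg_add_cancel, qf_zero, add_zero]

theorem pd_schur (hM : M.PosDef) : (schur M).PosDef := by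
  refine PosDef.of_dotProduct_mulVec_pos ?_ fun x hx => ?_
  · have t : M.toBlocks₂₂⁻¹ᵀ = M.toBlocks₂₂⁻¹ := by
      simpa [conjTranspose_eq_transpose_of_trivial] using (pd_bb hM).inv.1.eq
    refine (hM.submatrix Sum.inl_injective).1.sub ?_
    rw [IsHermitian, conjTranspose_eq_transpose_of_trivial, transpose_mul, transpose_mul, t,
      ← tr_ba hM, transpose_transpose, Matrix.mul_assoc]
  · rw [star_trivial, ← qf, qf_schur hM]
    simpa [qf] using hM.dotProduct_mulVec_pos (x := Sum.elim x (-(lm M *ᵥ x)))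
      fun e => hx (funext fun i => congrFun e (.inl i))

theorem dt_split [DecidableEq a] (hM : M.PosDef) : dt M = dt (schur M) * dt M.toBlocks₂₂ := by
  rw [← dt_jn (pd_schur hM) _ (lm M), jn_schur hM]

/-- the Schur complement is the inverse of the covariance block -/
theorem schur_inv [DecidableEq a] (hM : M.PosDef) : (schur M)⁻¹ = M⁻¹.toBlocks₁₁ := by
  have u := (pd_bb hM).det_pos.ne'.isUnit
  have v := (pd_schur hM).det_pos.ne'.isUnit
  have : M⁻¹ = fromBlocks 1 0 (-lm M) 1 * fromBlocks (schur M)⁻¹ 0 0 M.toBlocks₂₂⁻¹ *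
      (fromBlocks 1 0 (-lm M) 1)ᵀ := by
    refine inv_eq_left_inv ?_
    have e1 : (fromBlocks (1 : Matrix a a ℝ) 0 (-lm M) (1 : Matrix b b ℝ))ᵀ *
        (fromBlocks (1 : Matrix a a ℝ) 0 (lm M) (1 : Matrix b b ℝ))ᵀ = 1 := by
      simp [fromBlocks_transpose, fromBlocks_multiply]
    have e2 : fromBlocks (schur M)⁻¹ 0 0 M.toBlocks₂₂⁻¹ * fromBlocks (schur M) 0 0 M.toBlocks₂₂ = 1 := by
      simp [fromBlocks_multiply, nonsing_inv_mul _ u, nonsing_inv_mul _ v]
    have e3 : fromBlocks (1 : Matrix a a ℝ) 0 (-lm M) (1 : Matrix b b ℝ) *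
        fromBlocks (1 : Matrix a a ℝ) 0 (lm M) (1 : Matrix b b ℝ) = 1 := by
      simp [fromBlocks_multiply]
    have e4 := (jn_schur hM).symm.trans (jn_eq _ _ _)
    generalize fromBlocks (1 : Matrix a a ℝ) 0 (-lm M) (1 : Matrix b b ℝ) = P at *
    generalize fromBlocks (schur M)⁻¹ 0 0 M.toBlocks₂₂⁻¹ = Q at *
    rw [e4, Matrix.mul_assoc, Matrix.mul_assoc, Matrix.mul_assoc, ← Matrix.mul_assoc Pᵀ, e1,
      Matrix.one_mul, ← Matrix.mul_assoc Q, e2, Matrix.one_mul, e3]
  rw [this]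
  simp [fromBlocks_transpose, fromBlocks_multiply]

variable [DecidableEq κ]

variable (κ) in
/-- `κ` conditionally independent clones of the coordinates `b` -/
def cl (M : Matrix (a ⊕ b) (a ⊕ b) ℝ) : Matrix (a ⊕ κ × b) (a ⊕ κ × b) ℝ :=
  jn (schur M) (dg κ M.toBlocks₂₂) (st κ (lm M))

theorem pd_cl (hM : M.PosDef) : (cl κ M).PosDef := pd_jn (pd_schur hM) (pd_dg (pd_bb hM)) _

theorem qf_cl (M : Matrix (a ⊕ b) (a ⊕ b) ℝ) (u : a → ℝ) (v : κ × b → ℝ) :
    qf (cl κ M) (Sum.elim u v) =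
      qf (schur M) u + ∑ k, qf M.toBlocks₂₂ ((fun j => v (k, j)) + lm M *ᵥ u) := by
  rw [cl, qf_jn, qf_dg]
  rfl

theorem gs_cl (M : Matrix (a ⊕ b) (a ⊕ b) ℝ) (u : a → ℝ) (v : κ × b → ℝ) :
    gs (cl κ M) (Sum.elim u v) =
      gs (schur M) u * ∏ k, gs M.toBlocks₂₂ ((fun j => v (k, j)) + lm M *ᵥ u) := by
  simp only [gs]
  rw [qf_cl, mul_add, neg_add, Real.exp_add, ← Real.exp_sum, Finset.mul_sum, ← Finset.sum_neg_distrib]

/-- upper bounds for the precision pass to clones -/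
theorem qf_cl_le [Nonempty κ] (hM : M.PosDef) (u : a → ℝ) (v : κ × b → ℝ) :
    qf (cl κ M) (Sum.elim u v) ≤ ∑ k, qf M (Sum.elim u fun j => v (k, j)) := by
  simp only [qf_cl, qf_split hM, Finset.sum_add_distrib]
  refine add_le_add_left ?_ _
  exact Finset.single_le_sum (f := fun _ : κ => qf (schur M) u)
    (fun _ _ => qf_nonneg (pd_schur hM) u) (Finset.mem_univ (Classical.arbitrary κ))

theorem qf_cl_le' [Nonempty κ] (hM : M.PosDef) {B : ℝ} (hB : 0 ≤ B)
    (h : ∀ x, qf M x ≤ B * ∑ i, x i ^ 2) (x : a ⊕ κ × b → ℝ) :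
    qf (cl κ M) x ≤ Fintype.card κ * B * ∑ i, x i ^ 2 := by
  rw [elim_eq x]
  refine (qf_cl_le hM _ _).trans ((Finset.sum_le_card_nsmul _ _ _ fun k _ => (h _).trans
    (mul_le_mul_of_nonneg_left (c := ∑ i, x i ^ 2) ?_ hB)).trans ?_)
  · rw [Fintype.sum_sum_type, Fintype.sum_sum_type, Fintype.sum_prod_type]
    refine add_le_add_right ?_ _
    exact Finset.single_le_sum (f := fun k : κ => ∑ j, x (.inr (k, j)) ^ 2)
      (fun _ _ => by positivity) (Finset.mem_univ k)
  · rw [← elim_eq x, nsmul_eq_mul, Finset.card_univ, mul_assoc]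

theorem dt_cl [DecidableEq a] (hM : M.PosDef) :
    dt (cl κ M) = dt (schur M) * dt M.toBlocks₂₂ ^ Fintype.card κ := by
  rw [cl, dt_jn (pd_schur hM), dt_dg (pd_bb hM)]
end

/-! ### block structure -/

section
variable {ι : Type} [Fintype ι] [DecidableEq ι] {lev : ι → ℕ} {M : Matrix ι ι ℝ}

theorem Blk.inv (h : Blk lev M) : Blk lev M⁻¹ := by
  by_cases u : IsUnit M.det
  · have c : M * diagonal (fun i => (lev i : ℝ)) = diagonal (fun i => (lev i : ℝ)) * M := by
      ext i j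
      rw [mul_diagonal, diagonal_mul]
      by_cases e : lev i = lev j
      · rw [e, mul_comm]
      · simp [h i j e]
    have d : diagonal (fun i => (lev i : ℝ)) * M⁻¹ = M⁻¹ * diagonal (fun i => (lev i : ℝ)) := by
      calc _ = M⁻¹ * (M * diagonal (fun i => (lev i : ℝ))) * M⁻¹ := by
            rw [← Matrix.mul_assoc, nonsing_inv_mul _ u, Matrix.one_mul]
        _ = _ := by rw [c, Matrix.mul_assoc, Matrix.mul_assoc, mul_nonsing_inv _ u, Matrix.mul_one]
    intro i j e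
    have := congrFun (congrFun d i) j
    rw [mul_diagonal, diagonal_mul, mul_comm] at this
    exact (mul_eq_mul_left_iff.1 this).resolve_left (by exact_mod_cast e)
  · rw [nonsing_inv_apply_not_isUnit _ u]
    exact fun _ _ _ => rfl

theorem dt_blk (h : Blk lev M) (hM : M.PosDef) {s : ℕ} (hs : ∀ i, lev i < s) :
    dt M = ∏ l ∈ Finset.range s, dt (blk lev M l) := by
  have t : M.BlockTriangular lev := fun i j k => h i j k.ne'
  have e : M.det = ∏ l ∈ Finset.range s, (blk lev M l).det := by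
    rw [t.det]
    refine Finset.prod_subset (fun l k => ?_) fun l _ k => ?_
    · obtain ⟨i, -, rfl⟩ := Finset.mem_image.1 k
      exact Finset.mem_range.2 (hs i)
    · have : IsEmpty {i // lev i = l} := ⟨fun i => k (Finset.mem_image.2 ⟨i, Finset.mem_univ _, i.2⟩)⟩
      exact det_isEmpty
  simp only [dt]
  rw [e, Finset.prod_inv_distrib, Real.sqrt_prod _ fun l _ => (blk_pd hM l).det_pos.le]
end

/-- level preserving rectangular matrices -/
def Lv {α : Type*} [Zero α] {m n : Type} (p : m → ℕ) (q : n → ℕ) (A : Matrix m n α) : Prop :=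
  ∀ i j, p i ≠ q j → A i j = 0

theorem Lv.mul {α : Type*} [NonUnitalNonAssocSemiring α] {m n o : Type} [Fintype n] {p : m → ℕ}
    {q : n → ℕ} {r : o → ℕ} {A : Matrix m n α} {B : Matrix n o α} (h : Lv p q A) (k : Lv q r B) :
    Lv p r (A * B) := fun i j e => Finset.sum_eq_zero fun l _ => by
  change A i l * B l j = 0
  by_cases c : p i = q l
  · rw [k l j (c ▸ e), mul_zero]
  · rw [h i l c, zero_mul]

theorem Lv.tr {α : Type*} [Zero α] {m n : Type} {p : m → ℕ} {q : n → ℕ} {A : Matrix m n α}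
    (h : Lv p q A) : Lv q p Aᵀ := fun i j e => h j i e.symm

omit [Fintype a] in
theorem blk_jn {p : a → ℕ} {q : b → ℕ} {S : Matrix a a ℝ} {D : Matrix b b ℝ} {L : Matrix b a ℝ}
    (hS : Blk p S) (hD : Blk q D) (hL : Lv q p L) : Blk (Sum.elim p q) (jn S D L) := by
  have d : Lv q q D := hD
  rintro (i | i) (j | j) e
  · exact (congrArg₂ (· + ·) (hS i j e) ((hL.tr.mul d).mul hL i j e)).trans (add_zero 0)
  · exact hL.tr.mul d i j e
  · exact d.mul hL i j e
  · exact hD i j e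

section
variable [DecidableEq b] {lev : a ⊕ b → ℕ} {M : Matrix (a ⊕ b) (a ⊕ b) ℝ}

omit [Fintype a] [Fintype b] [DecidableEq b] in
theorem blk_bb (h : Blk lev M) : Blk (fun j => lev (.inr j)) M.toBlocks₂₂ := fun _ _ e => h _ _ e

omit [Fintype a] in
theorem lv_lm (h : Blk lev M) : Lv (fun j => lev (.inr j)) (fun i => lev (.inl i)) (lm M) :=
  Lv.mul (blk_bb h).inv fun _ _ e => h _ _ e

omit [Fintype a] in
theorem blk_schur (h : Blk lev M) : Blk (fun i => lev (.inl i)) (schur M) := fun i j e => by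
  have k : Lv (fun i => lev (.inl i)) (fun j => lev (.inr j)) M.toBlocks₁₂ := fun _ _ e => h _ _ e
  have l : Lv (fun j => lev (.inr j)) (fun i => lev (.inl i)) M.toBlocks₂₁ := fun _ _ e => h _ _ e
  exact (congrArg₂ (· - ·) (h (.inl i) (.inl j) e) ((k.mul (blk_bb h).inv).mul l i j e)).trans
    (sub_zero 0)

variable (κ) in
/-- levels of the cloned coordinates -/
def lc (lev : a ⊕ b → ℕ) : a ⊕ κ × b → ℕ :=
  Sum.elim (fun i => lev (.inl i)) fun p => lev (.inr p.2)

omit [Fintype a] in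
theorem blk_cl [DecidableEq κ] (h : Blk lev M) : Blk (lc κ lev) (cl κ M) :=
  blk_jn (blk_schur h) (fun p q e => by simp [dg, blk_bb h p.2 q.2 e]) fun p i e => lv_lm h p.2 i e
end

end Crest.Agent.N49.Rw
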