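import Crest.Agent.N49.Po.Mas

/-!
# Row 49 (helper64): raw Gaussian towers

Coordinates `ι` with levels `lev`, a triangular centre map `Θ`, a positive definite form `M` which
is block diagonal in the level.  The weight of `y : ι → ℤ` is `gs M (y - Θ y)`.
-/

set_option autoImplicit false

open Matrix

noncomputable section

namespace Crest.Agent.N49.Rw

open Po

variable {ι : Type} (lev : ι → ℕ)

/-- `Θ · i` depends only on the coordinates of smaller level -/
def Tri (Θ : (ι → ℤ) → ι → ℝ) : Prop :=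
  ∀ y y' i, (∀ j, lev j < lev i → y j = y' j) → Θ y i = Θ y' i

/-- block diagonal in the level -/
def Blk (M : Matrix ι ι ℝ) : Prop := ∀ i j, lev i ≠ lev j → M i j = 0

/-- coordinates below level `l` -/
abbrev Lo (l : ℕ) : Type := {i // lev i < l}

/-- coordinates of level `l` -/
abbrev At (l : ℕ) : Type := {i // lev i = l}

/-- extension by zero -/
def ext (l : ℕ) (y : Lo lev l → ℤ) : ι → ℤ := fun i => if h : lev i < l then y ⟨i, h⟩ else 0

/-- restriction -/
def res (l : ℕ) (y : ι → ℤ) : Lo lev l → ℤ := fun i => y i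

/-- one more level -/
def sp (l : ℕ) : (Lo lev l → ℤ) × (At lev l → ℤ) ≃ (Lo lev (l + 1) → ℤ) where
  toFun x i := if h : lev i < l then x.1 ⟨i, h⟩ else x.2 ⟨i, by have := i.2; omega⟩
  invFun y := (fun i => y ⟨i, i.2.trans l.lt_succ_self⟩, fun i => y ⟨i, by have := i.2; omega⟩)
  left_inv x := Prod.ext (funext fun i => dif_pos i.2) (funext fun i => dif_neg i.2.not_lt)
  right_inv y := funext fun i => by by_cases h : lev i < l <;> simp [h]

/-- all levels -/
def top {s : ℕ} (hs : ∀ i, lev i < s) : (Lo lev s → ℤ) ≃ (ι → ℤ) where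
  toFun := ext lev s
  invFun := res lev s
  left_inv _ := funext fun i => dif_pos i.2
  right_inv _ := funext fun i => dif_pos (hs i)

/-- the block of level `l` -/
def blk (M : Matrix ι ι ℝ) (l : ℕ) : Matrix (At lev l) (At lev l) ℝ := M.submatrix (↑) (↑)

/-- the centre of level `l` -/
def cen (Θ : (ι → ℤ) → ι → ℝ) (l : ℕ) (y : Lo lev l → ℤ) : At lev l → ℝ :=
  fun i => Θ (ext lev l y) i

variable {lev}

theorem ext_lt {l : ℕ} (y : Lo lev l → ℤ) {i : ι} (h : lev i < l) : ext lev l y i = y ⟨i, h⟩ :=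
  dif_pos h

theorem res_ext {l : ℕ} (y : Lo lev l → ℤ) : res lev l (ext lev l y) = y :=
  funext fun i => dif_pos i.2

theorem ext_sp {l : ℕ} (x : (Lo lev l → ℤ) × (At lev l → ℤ)) {i : ι} (h : lev i < l) :
    ext lev (l + 1) (sp lev l x) i = ext lev l x.1 i := by
  rw [ext_lt _ h, ext_lt _ (h.trans l.lt_succ_self)]
  exact dif_pos h

theorem ext_sp' {l : ℕ} (x : (Lo lev l → ℤ) × (At lev l → ℤ)) (i : At lev l) :
    ext lev (l + 1) (sp lev l x) i = x.2 i := by
  rw [ext_lt _ (i.2.trans_lt l.lt_succ_self)]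
  exact dif_neg i.2.not_lt

theorem Tri.cen_res {Θ : (ι → ℤ) → ι → ℝ} (h : Tri lev Θ) (l : ℕ) (y : ι → ℤ) (i : At lev l) :
    cen lev Θ l (res lev l y) i = Θ y i :=
  h _ _ _ fun _ hj => ext_lt _ (hj.trans_eq i.2)

variable [Fintype ι]

/-- the weight -/
def wt (M : Matrix ι ι ℝ) (Θ : (ι → ℤ) → ι → ℝ) (y : ι → ℤ) : ℝ := gs M (zc y - Θ y)

variable (lev) in
/-- the weight of the levels below `l` -/
def wl (M : Matrix ι ι ℝ) (Θ : (ι → ℤ) → ι → ℝ) (l : ℕ) (y : Lo lev l → ℤ) : ℝ :=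
  gs (M.submatrix (↑) (↑)) (zc y - fun i : Lo lev l => Θ (ext lev l y) i)

variable (lev) in
/-- the partition function of the levels below `l` -/
def Zl (M : Matrix ι ι ℝ) (Θ : (ι → ℤ) → ι → ℝ) (l : ℕ) : ℝ := ∑' y, wl lev M Θ l y

variable {M : Matrix ι ι ℝ} {Θ : (ι → ℤ) → ι → ℝ}

theorem wt_pos (y : ι → ℤ) : 0 < wt M Θ y := gs_pos _ _

theorem wl_pos (l : ℕ) (y : Lo lev l → ℤ) : 0 < wl lev M Θ l y := gs_pos _ _

theorem qf_sub {p : ι → Prop} [DecidablePred p] (M : Matrix ι ι ℝ) (x : ι → ℝ) :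
    qf (M.submatrix ((↑) : {i // p i} → ι) (↑)) (fun i => x i) =
      ∑ i, ∑ j, if p i ∧ p j then x i * (M i j * x j) else 0 := by
  simp only [qf, dotProduct, mulVec, submatrix_apply, Finset.mul_sum]
  rw [← Finset.sum_subtype (Finset.univ.filter p) (by simp)
    fun i => ∑ j : {i // p i}, x i * (M i j * x j), Finset.sum_filter]
  refine Finset.sum_congr rfl fun i _ => ?_
  rw [← Finset.sum_subtype (Finset.univ.filter p) (by simp) fun j => x i * (M i j * x j),
    Finset.sum_filter]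
  by_cases h : p i <;> simp [h]

theorem Blk.qf_succ (hB : Blk lev M) (l : ℕ) (x : ι → ℝ) :
    qf (M.submatrix ((↑) : Lo lev (l + 1) → ι) (↑)) (fun i => x i) =
      qf (M.submatrix ((↑) : Lo lev l → ι) (↑)) (fun i => x i) + qf (blk lev M l) fun i => x i := by
  rw [blk, qf_sub, qf_sub, qf_sub, ← Finset.sum_add_distrib]
  refine Finset.sum_congr rfl fun i _ => ?_
  rw [← Finset.sum_add_distrib]
  refine Finset.sum_congr rfl fun j _ => ?_
  by_cases e : lev i = lev j
  · rw [← e]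
    split_ifs <;> first | omega | simp
  · simp [hB i j e]

theorem wl_sp (hT : Tri lev Θ) (hB : Blk lev M) (l : ℕ) (x : (Lo lev l → ℤ) × (At lev l → ℤ)) :
    wl lev M Θ (l + 1) (sp lev l x) =
      wl lev M Θ l x.1 * gs (blk lev M l) (zc x.2 - cen lev Θ l x.1) := by
  have h := hB.qf_succ l (zc (ext lev (l + 1) (sp lev l x)) - Θ (ext lev (l + 1) (sp lev l x)))
  have k : ∀ i, lev i ≤ l → Θ (ext lev (l + 1) (sp lev l x)) i = Θ (ext lev l x.1) i :=
    fun i hi => hT _ _ _ fun j hj => ext_sp x (hj.trans_le hi)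
  rw [wl, wl, gs, gs, gs, ← Real.exp_add, ← neg_add, ← mul_add]
  congr 3
  convert h using 3
  · rename_i i
    simp only [Pi.sub_apply, zc, ext_lt _ i.2]
  · funext i
    simp only [Pi.sub_apply, zc, k i i.2.le, ext_sp x i.2, ext_lt _ i.2]
  · funext i
    simp only [Pi.sub_apply, zc, cen, k i i.2.le, ext_sp']

theorem wl_zero (y : Lo lev 0 → ℤ) : wl lev M Θ 0 y = 1 := by
  have : IsEmpty (Lo lev 0) := ⟨fun i => i.2.not_ge (Nat.zero_le _)⟩
  simp [wl, gs, qf, dotProduct]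

theorem Zl_zero : Zl lev M Θ 0 = 1 := by
  have : IsEmpty (Lo lev 0) := ⟨fun i => i.2.not_ge (Nat.zero_le _)⟩
  simp [Zl, wl_zero]

theorem wt_ext {s : ℕ} (hs : ∀ i, lev i < s) (y : Lo lev s → ℤ) :
    wt M Θ (ext lev s y) = wl lev M Θ s y := by
  have h := qf_sub (p := fun i => lev i < s) M (zc (ext lev s y) - Θ (ext lev s y))
  simp only [hs, and_self, if_true] at h
  rw [wt, wl, gs, gs]
  congr 3
  refine Eq.trans ?_ (h.symm.trans ?_)
  · simp only [qf, dotProduct, mulVec, Finset.mul_sum]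
  · congr 1
    funext i
    simp only [Pi.sub_apply, zc, ext_lt _ i.2]

/-- sums over the tower are sums over the levels below `s` -/
theorem tsum_wt {E : Type*} [AddCommMonoid E] [TopologicalSpace E] {s : ℕ} (hs : ∀ i, lev i < s)
    (F : ℝ → (ι → ℤ) → E) :
    ∑' y, F (wt M Θ y) y = ∑' y, F (wl lev M Θ s y) (ext lev s y) := by
  rw [← (top lev hs).tsum_eq]
  exact tsum_congr fun y => congrArg (F · _) (wt_ext hs y)

/-- sums over the levels below `l + 1` -/
theorem tsum_succ {E : Type*} [AddCommMonoid E] [TopologicalSpace E] (hT : Tri lev Θ)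
    (hB : Blk lev M) (l : ℕ) (F : ℝ → (Lo lev (l + 1) → ℤ) → E) :
    ∑' y, F (wl lev M Θ (l + 1) y) y = ∑' x : (Lo lev l → ℤ) × (At lev l → ℤ),
      F (wl lev M Θ l x.1 * gs (blk lev M l) (zc x.2 - cen lev Θ l x.1)) (sp lev l x) := by
  rw [← (sp lev l).tsum_eq]
  simp only [wl_sp hT hB]

theorem Z_eq {s : ℕ} (hs : ∀ i, lev i < s) : ∑' y, wt M Θ y = Zl lev M Θ s :=
  tsum_wt hs fun w _ => w

omit [Fintype ι] in
theorem blk_pd (hM : M.PosDef) (l : ℕ) : (blk lev M l).PosDef :=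
  hM.submatrix Subtype.val_injective

variable [DecidableEq ι]

theorem summable_wl (hT : Tri lev Θ) (hB : Blk lev M) (hM : M.PosDef) (l : ℕ) :
    Summable (wl lev M Θ l) := by
  induction l with
  | zero =>
    have : IsEmpty (Lo lev 0) := ⟨fun i => i.2.not_ge (Nat.zero_le _)⟩
    exact Summable.of_finite
  | succ l ih =>
    rw [← (sp lev l).summable_iff]
    exact (summable_ext (blk_pd hM l) (fun y => (wl_pos l y).le) ih (cen lev Θ l)).congr
      fun x => (wl_sp hT hB l x).symm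

theorem summable_wt' (hT : Tri lev Θ) (hB : Blk lev M) (hM : M.PosDef) : Summable (wt M Θ) := by
  have hs : ∀ i, lev i < Finset.univ.sup lev + 1 := fun i =>
    Nat.lt_succ_of_le (Finset.le_sup (Finset.mem_univ i))
  rw [← (top lev hs).summable_iff]
  exact (summable_wl hT hB hM _).congr fun y => (wt_ext hs y).symm

theorem Zl_pos (hT : Tri lev Θ) (hB : Blk lev M) (hM : M.PosDef) (l : ℕ) : 0 < Zl lev M Θ l :=
  (summable_wl hT hB hM l).tsum_pos (fun y => (wl_pos l y).le) 0 (wl_pos l 0)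

theorem Zl_succ (hT : Tri lev Θ) (hB : Blk lev M) (hM : M.PosDef) (l : ℕ) :
    Zl lev M Θ (l + 1) = ∑' y, wl lev M Θ l y * th (blk lev M l) (cen lev Θ l y) :=
  (tsum_succ hT hB l fun w _ => w).trans
    (tsum_ext_real (blk_pd hM l) (fun y => (wl_pos l y).le) (summable_wl hT hB hM l) _)

/-- Fubini over the top level -/
theorem fub_succ (hT : Tri lev Θ) (hB : Blk lev M) (hM : M.PosDef) (l : ℕ)
    {F : (Lo lev (l + 1) → ℤ) → ℂ} {B : ℝ} (hF : ∀ y, ‖F y‖ ≤ B) :
    ∑' y, (wl lev M Θ (l + 1) y : ℂ) * F y = ∑' y, (wl lev M Θ l y : ℂ) *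
      ∑' n : At lev l → ℤ, (gs (blk lev M l) (zc n - cen lev Θ l y) : ℂ) * F (sp lev l (y, n)) :=
  (tsum_succ hT hB l fun w y => (w : ℂ) * F y).trans
    (tsum_ext (blk_pd hM l) (fun y => (wl_pos l y).le) (summable_wl hT hB hM l) _
      (F := fun x => F (sp lev l x)) fun _ => hF _)

/-- a function of the lower levels -/
theorem low_succ (hT : Tri lev Θ) (hB : Blk lev M) (hM : M.PosDef) (l : ℕ)
    {g : (Lo lev l → ℤ) → ℂ} {B : ℝ} (hg : ∀ y, ‖g y‖ ≤ B) :
    ∑' y, (wl lev M Θ (l + 1) y : ℂ) * g ((sp lev l).symm y).1 =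
      ∑' y, (wl lev M Θ l y : ℂ) * (g y * th (blk lev M l) (cen lev Θ l y)) := by
  rw [fub_succ hT hB hM l (F := fun y => g ((sp lev l).symm y).1) fun _ => hg _]
  simp only [Equiv.symm_apply_apply, tsum_mul_right, th, Complex.ofReal_tsum, mul_comm (g _)]

theorem Zl_succ_le (hT : Tri lev Θ) (hB : Blk lev M) (hM : M.PosDef) (l : ℕ) :
    Zl lev M Θ (l + 1) ≤ th (blk lev M l) 0 * Zl lev M Θ l := by
  have s := summable_wl hT hB hM l
  have k : ∀ y, wl lev M Θ l y * th (blk lev M l) (cen lev Θ l y) ≤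
      wl lev M Θ l y * th (blk lev M l) 0 := fun y =>
    mul_le_mul_of_nonneg_left (th_le (blk_pd hM l) _) (wl_pos l y).le
  rw [Zl_succ hT hB hM, Zl, mul_comm, ← tsum_mul_right]
  exact (Summable.of_nonneg_of_le (fun y => mul_nonneg (wl_pos l y).le (th_nonneg _ _)) k
    (s.mul_right _)).tsum_le_tsum k (s.mul_right _)

theorem Zl_le (hT : Tri lev Θ) (hB : Blk lev M) (hM : M.PosDef) (s : ℕ) :
    Zl lev M Θ s ≤ ∏ l ∈ Finset.range s, th (blk lev M l) 0 := by
  induction s with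
  | zero => simp [Zl_zero]
  | succ s ih =>
    rw [Finset.prod_range_succ, mul_comm]
    exact (Zl_succ_le hT hB hM s).trans (mul_le_mul_of_nonneg_left ih (th_nonneg _ _))

variable (lev M Θ) in
/-- regularity of level `l`: short dual vectors are unbiased on the lower levels -/
def Reg (l : ℕ) (R τ : ℝ) : Prop :=
  ∀ m : At lev l → ℤ, m ≠ 0 → qf (blk lev M l)⁻¹ (zc m) < R →
    ‖∑' y, (wl lev M Θ l y : ℂ) * ee (-(zc m ⬝ᵥ cen lev Θ l y))‖ ≤ τ * Zl lev M Θ l

variable (lev M) in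
/-- the relative error of level `l` -/
def er (l : ℕ) (R τ : ℝ) : ℝ :=
  τ * (th (blk lev M l)⁻¹ 0 - 1) + bz (At lev l) R * th (blk lev M l)⁻¹ 0

theorem master_succ (hT : Tri lev Θ) (hB : Blk lev M) (hM : M.PosDef) {l : ℕ} {R τ : ℝ}
    (hτ : 0 ≤ τ) (h : Reg lev M Θ l R τ) :
    |Zl lev M Θ (l + 1) - dt (blk lev M l) * Zl lev M Θ l| ≤
      dt (blk lev M l) * (er lev M l R τ * Zl lev M Θ l) := by
  rw [Zl_succ hT hB hM]
  exact master1_real (blk_pd hM l) (fun y => (wl_pos l y).le) (summable_wl hT hB hM l) _ hτ h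

/-- **master lemma for raw towers** -/
theorem master (hT : Tri lev Θ) (hB : Blk lev M) (hM : M.PosDef) (s : ℕ) {R τ η : ℕ → ℝ}
    (hτ : ∀ l < s, 0 ≤ τ l) (h : ∀ l < s, Reg lev M Θ l (R l) (τ l))
    (he : ∀ l < s, er lev M l (R l) (τ l) ≤ η l) (h1 : ∀ l < s, η l ≤ 1) :
    (∏ l ∈ Finset.range s, (1 - η l)) * ∏ l ∈ Finset.range s, dt (blk lev M l) ≤ Zl lev M Θ s ∧
      Zl lev M Θ s ≤ (∏ l ∈ Finset.range s, (1 + η l)) * ∏ l ∈ Finset.range s, dt (blk lev M l) := by
  induction s with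
  | zero => simp [Zl_zero]
  | succ s ih =>
    have ls := s.lt_succ_self
    obtain ⟨i1, i2⟩ := ih (fun l k => hτ l (k.trans ls)) (fun l k => h l (k.trans ls))
      (fun l k => he l (k.trans ls)) fun l k => h1 l (k.trans ls)
    have d0 := dt_pos (blk_pd (lev := lev) hM s)
    have z0 := Zl_pos hT hB hM s
    obtain ⟨m1, m2⟩ := abs_le.1 ((master_succ hT hB hM (hτ s ls) (h s ls)).trans
      (mul_le_mul_of_nonneg_left (mul_le_mul_of_nonneg_right (he s ls) z0.le) d0.le))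
    have e0 : 0 ≤ η s := by
      refine le_of_mul_le_mul_right (a := dt (blk lev M s) * Zl lev M Θ s) ?_ (mul_pos d0 z0)
      nlinarith
    simp only [Finset.prod_range_succ]
    constructor
    · have := mul_le_mul_of_nonneg_left i1 (mul_nonneg (sub_nonneg.2 (h1 s ls)) d0.le)
      nlinarith
    · have := mul_le_mul_of_nonneg_left i2 (mul_nonneg (by linarith : 0 ≤ 1 + η s) d0.le)
      nlinarith

end Crest.Agent.N49.Rw
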