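import Crest.Agent.N49.Rw.Sch
import Crest.Agent.N49.Gw.Hol

/-!
# Row 49 (helper65): marginals of raw towers (`MASTER+` from three partition functions)
-/

set_option autoImplicit false

open Matrix

noncomputable section

namespace Crest.Agent.N49.Rw

open Po

/-- second moment method -/
theorem var_tv {X : Type*} {w S : X → ℝ} (w0 : ∀ x, 0 ≤ w x) (s0 : Summable w)
    (s1 : Summable fun x => w x * S x) (s2 : Summable fun x => w x * S x ^ 2) {c η : ℝ}
    (hc : 0 ≤ c) (hη : 0 ≤ η) (h1 : (1 - η) * (c * ∑' x, w x) ≤ ∑' x, w x * S x)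
    (h2 : ∑' x, w x * S x ^ 2 ≤ (1 + η) * (c ^ 2 * ∑' x, w x)) :
    (Summable fun x => w x * |S x - c|) ∧ ∑' x, w x * |S x - c| ≤ √(3 * η) * (c * ∑' x, w x) := by
  have W0 : 0 ≤ ∑' x, w x := tsum_nonneg w0
  have h := (s2.hasSum.sub (s1.hasSum.mul_left (2 * c))).add (s0.hasSum.mul_left (c ^ 2))
  have h' : HasSum (fun x => w x * (S x - c) ^ 2) _ := h.congr_fun fun x => by ring
  have v : ∑' x, w x * (S x - c) ^ 2 ≤ 3 * η * (c ^ 2 * ∑' x, w x) := by
    rw [h'.tsum_eq]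
    nlinarith [mul_le_mul_of_nonneg_left h1 hc]
  have k : ∀ t : ℝ, 0 < t → ∀ x, w x * |S x - c| ≤ (w x * (S x - c) ^ 2) * (2 * t)⁻¹ + w x * (t / 2) :=
    fun t ht x => by
      rw [mul_assoc, ← mul_add]
      refine mul_le_mul_of_nonneg_left ?_ (w0 x)
      rw [← sq_abs, ← div_eq_mul_inv, div_add' _ _ _ (by positivity), le_div_iff₀ (by positivity)]
      nlinarith [sq_nonneg (|S x - c| - t)]
  have sm : Summable fun x => w x * |S x - c| :=
    .of_nonneg_of_le (fun x => mul_nonneg (w0 x) (abs_nonneg _)) (k 1 one_pos)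
      ((h'.summable.mul_right _).add (s0.mul_right _))
  refine ⟨sm, ?_⟩
  have g : ∀ t : ℝ, 0 < t → ∑' x, w x * |S x - c| ≤
      3 * η * (c ^ 2 * ∑' x, w x) * (2 * t)⁻¹ + (∑' x, w x) * (t / 2) := fun t ht =>
    (hasSum_le (k t ht) sm.hasSum ((h'.summable.hasSum.mul_right _).add
      (s0.hasSum.mul_right _))).trans (by gcongr)
  refine le_of_forall_pos_le_add fun ε hε => ?_
  obtain ⟨r, hr⟩ : ∃ r, r = √(3 * η) * c := ⟨_, rfl⟩
  have r0 : 0 ≤ r := by rw [hr]; positivity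
  have r2 : 3 * η * c ^ 2 = r ^ 2 := by rw [hr, mul_pow, Real.sq_sqrt (by positivity)]
  obtain ⟨d, hd⟩ : ∃ d, d = ε / (∑' x, w x + 1) := ⟨_, rfl⟩
  have d0 : 0 < d := by rw [hd]; positivity
  have d1 : d * ∑' x, w x ≤ ε := by
    rw [hd, div_mul_eq_mul_div, div_le_iff₀ (by positivity)]
    nlinarith
  refine (g (r + d) (by positivity)).trans ?_
  rw [← mul_assoc, ← mul_assoc, r2, ← hr]
  have : r ^ 2 * (2 * (r + d))⁻¹ ≤ r / 2 := by
    rw [← div_eq_mul_inv, div_le_iff₀ (by positivity)]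
    nlinarith
  nlinarith [mul_le_mul_of_nonneg_right this W0]

variable {a b κ : Type}

/-- the centre on `a` is a function of the coordinates `a` -/
def Sub (Θ : (a ⊕ b → ℤ) → a ⊕ b → ℝ) (Θa : (a → ℤ) → a → ℝ) : Prop :=
  ∀ y i, Θ y (.inl i) = Θa (fun j => y (.inl j)) i

variable (κ) in
/-- the centre map of the clone tower -/
def ct (Θ : (a ⊕ b → ℤ) → a ⊕ b → ℝ) (y : a ⊕ κ × b → ℤ) : a ⊕ κ × b → ℝ :=
  Sum.elim (fun i => Θ (Sum.elim (fun j => y (.inl j)) 0) (.inl i))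
    fun p => Θ (Sum.elim (fun j => y (.inl j)) fun j => y (.inr (p.1, j))) (.inr p.2)

variable {lev : a ⊕ b → ℕ} {M : Matrix (a ⊕ b) (a ⊕ b) ℝ} {Θ : (a ⊕ b → ℤ) → a ⊕ b → ℝ}
  {Θa : (a → ℤ) → a → ℝ}

theorem Sub.tri (h : Sub Θ Θa) (hT : Tri lev Θ) : Tri (fun i => lev (.inl i)) Θa := fun y y' i k => by
  have := hT (Sum.elim y 0) (Sum.elim y' 0) (.inl i) (by rintro (j | j) l; exacts [k j l, rfl])
  rwa [h, h] at this

theorem Sub.ct (h : Sub Θ Θa) : Sub (ct κ Θ) Θa := fun _ i => h _ i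

theorem tri_ct (hT : Tri lev Θ) : Tri (lc κ lev) (ct κ Θ) := by
  rintro y y' (i | p) k
  · exact hT _ _ _ (by rintro (j | j) l; exacts [k (.inl j) l, rfl])
  · exact hT _ _ _ (by rintro (j | j) l; exacts [k (.inl j) l, k (.inr (p.1, j)) l])

variable [Fintype a] [Fintype b] [DecidableEq b]

variable (M Θ Θa) in
/-- the conditional weight of the coordinates `b` -/
def fk (u : a → ℤ) (v : b → ℤ) : ℝ :=
  gs M.toBlocks₂₂ ((fun j => (v j : ℝ) - Θ (Sum.elim u v) (.inr j)) + lm M *ᵥ (zc u - Θa u))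

variable (M Θ Θa) in
/-- the mass of the fibre -/
def fib (u : a → ℤ) : ℝ := ∑' v, fk M Θ Θa u v

theorem fk_pos (u : a → ℤ) (v : b → ℤ) : 0 < fk M Θ Θa u v := gs_pos _ _

theorem fib_nonneg (u : a → ℤ) : 0 ≤ fib M Θ Θa u := tsum_nonneg fun v => (fk_pos u v).le

theorem wt_split (hM : M.PosDef) (h : Sub Θ Θa) (u : a → ℤ) (v : b → ℤ) :
    wt M Θ (Sum.elim u v) = wt (schur M) Θa u * fk M Θ Θa u v := by
  rw [wt, wt, fk, ← gs_split hM]
  congr 1
  funext i
  cases i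
  · simp [zc, h _ _]
  · simp [zc]

theorem wt_ct [Fintype κ] [DecidableEq κ] (h : Sub Θ Θa) (u : a → ℤ) (v : κ → b → ℤ) :
    wt (cl κ M) (ct κ Θ) (Sum.elim u fun p => v p.1 p.2) =
      wt (schur M) Θa u * ∏ k, fk M Θ Θa u (v k) := by
  have e : zc (Sum.elim u fun p : κ × b => v p.1 p.2) - ct κ Θ (Sum.elim u fun p => v p.1 p.2) =
      Sum.elim (zc u - Θa u) fun p => (v p.1 p.2 : ℝ) - Θ (Sum.elim u (v p.1)) (.inr p.2) := by
    funext i
    cases i
    · simp [zc, ct, h _ _]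
    · simp [zc, ct]
  rw [wt, e, gs_cl]
  rfl

/-- splitting of configurations -/
def spl (a b : Type) : (a → ℤ) × (b → ℤ) ≃ (a ⊕ b → ℤ) := (Equiv.sumArrowEquivProdArrow a b ℤ).symm

/-- splitting of configurations of the clone tower -/
def splc (a κ b : Type) : (a → ℤ) × (κ → b → ℤ) ≃ (a ⊕ κ × b → ℤ) :=
  ((Equiv.refl _).prodCongr (Equiv.curry κ b ℤ).symm).trans (spl a (κ × b))

omit [Fintype a] [Fintype b] [DecidableEq b] in
theorem spl_apply (x : (a → ℤ) × (b → ℤ)) : spl a b x = Sum.elim x.1 x.2 := rfl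

omit [Fintype a] [Fintype b] [DecidableEq b] in
theorem splc_apply (x : (a → ℤ) × (κ → b → ℤ)) :
    splc a κ b x = Sum.elim x.1 fun p => x.2 p.1 p.2 := rfl

/-- sums over the tower as sums over pairs -/
theorem tsum_split {E : Type*} [AddCommMonoid E] [TopologicalSpace E] (hM : M.PosDef)
    (h : Sub Θ Θa) (F : ℝ → (a ⊕ b → ℤ) → E) : ∑' y, F (wt M Θ y) y =
      ∑' x : (a → ℤ) × (b → ℤ), F (wt (schur M) Θa x.1 * fk M Θ Θa x.1 x.2) (Sum.elim x.1 x.2) := by
  rw [← (spl a b).tsum_eq]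
  simp only [spl_apply, wt_split hM h]

/-- sums over the clone tower -/
theorem tsum_ct [Fintype κ] [DecidableEq κ] {E : Type*} [AddCommMonoid E] [TopologicalSpace E]
    (h : Sub Θ Θa) (F : ℝ → (a ⊕ κ × b → ℤ) → E) : ∑' y, F (wt (cl κ M) (ct κ Θ) y) y =
      ∑' x : (a → ℤ) × (κ → b → ℤ), F (wt (schur M) Θa x.1 * ∏ k, fk M Θ Θa x.1 (x.2 k))
        (Sum.elim x.1 fun p => x.2 p.1 p.2) := by
  rw [← (splc a κ b).tsum_eq]
  simp only [splc_apply, wt_ct h]

variable [DecidableEq a]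

theorem summable_pair (hT : Tri lev Θ) (hB : Blk lev M) (hM : M.PosDef) (h : Sub Θ Θa) :
    Summable fun x : (a → ℤ) × (b → ℤ) => wt (schur M) Θa x.1 * fk M Θ Θa x.1 x.2 :=
  ((spl a b).summable_iff.2 (summable_wt' hT hB hM)).congr fun x => wt_split hM h x.1 x.2

theorem summable_sub (hT : Tri lev Θ) (hB : Blk lev M) (hM : M.PosDef) (h : Sub Θ Θa) :
    Summable (wt (schur M) Θa) := summable_wt' (h.tri hT) (blk_schur hB) (pd_schur hM)

theorem summable_fk (hT : Tri lev Θ) (hB : Blk lev M) (hM : M.PosDef) (h : Sub Θ Θa) (u : a → ℤ) :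
    Summable (fk M Θ Θa u) :=
  (summable_mul_left_iff (wt_pos (M := schur M) (Θ := Θa) u).ne').1
    ((summable_pair hT hB hM h).prod_factor u)

theorem fib_pos (hT : Tri lev Θ) (hB : Blk lev M) (hM : M.PosDef) (h : Sub Θ Θa) (u : a → ℤ) :
    0 < fib M Θ Θa u := (summable_fk hT hB hM h u).tsum_pos (fun v => (fk_pos u v).le) 0 (fk_pos u 0)

theorem hasSum_fib (hT : Tri lev Θ) (hB : Blk lev M) (hM : M.PosDef) (h : Sub Θ Θa) :
    HasSum (fun u => wt (schur M) Θa u * fib M Θ Θa u) (∑' y, wt M Θ y) := by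
  rw [tsum_split hM h fun w _ => w]
  exact (summable_pair hT hB hM h).hasSum.prod_fiberwise fun u =>
    (summable_fk hT hB hM h u).hasSum.mul_left _

theorem summable_ct [Fintype κ] [DecidableEq κ] (hT : Tri lev Θ) (hB : Blk lev M) (hM : M.PosDef)
    (h : Sub Θ Θa) : Summable fun x : (a → ℤ) × (κ → b → ℤ) =>
      wt (schur M) Θa x.1 * ∏ k, fk M Θ Θa x.1 (x.2 k) :=
  ((splc a κ b).summable_iff.2 (summable_wt' (tri_ct hT) (blk_cl hB) (pd_cl hM))).congr
    fun x => wt_ct h x.1 x.2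

theorem hasSum_fib_pow (κ : Type) [Fintype κ] [DecidableEq κ] (hT : Tri lev Θ) (hB : Blk lev M)
    (hM : M.PosDef) (h : Sub Θ Θa) :
    HasSum (fun u => wt (schur M) Θa u * fib M Θ Θa u ^ Fintype.card κ)
      (∑' y, wt (cl κ M) (ct κ Θ) y) := by
  rw [tsum_ct h fun w _ => w]
  refine (summable_ct hT hB hM h).hasSum.prod_fiberwise fun u => HasSum.mul_left _ ?_
  simpa [fib] using Gw.hasSum_pi_prod (fun _ : κ => fk M Θ Θa u) fun _ => summable_fk hT hB hM h u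

/-- Fubini with bounded test functions -/
theorem tsum_fub (hT : Tri lev Θ) (hB : Blk lev M) (hM : M.PosDef) (h : Sub Θ Θa)
    {F : (a ⊕ b → ℤ) → ℂ} {B : ℝ} (hF : ∀ y, ‖F y‖ ≤ B) : ∑' y, (wt M Θ y : ℂ) * F y =
      ∑' u, (wt (schur M) Θa u : ℂ) * ∑' v, (fk M Θ Θa u v : ℂ) * F (Sum.elim u v) := by
  rw [tsum_split hM h fun w y => (w : ℂ) * F y, (summable_wt (fun x => (mul_pos (wt_pos _)
    (fk_pos _ _)).le) (summable_pair hT hB hM h) fun x => hF _).tsum_prod]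
  simp only [Complex.ofReal_mul, mul_assoc, tsum_mul_left]

/-- Fubini on the clone tower: the clones are independent given `a` -/
theorem tsum_fub_ct [Fintype κ] [DecidableEq κ] (hT : Tri lev Θ) (hB : Blk lev M) (hM : M.PosDef)
    (h : Sub Θ Θa) {f : (a → ℤ) → ℂ} {G : κ → (a → ℤ) → (b → ℤ) → ℂ} {B : ℝ} (hf : ∀ u, ‖f u‖ ≤ B)
    (hG : ∀ k u v, ‖G k u v‖ ≤ B) :
    ∑' y, (wt (cl κ M) (ct κ Θ) y : ℂ) * (f (fun i => y (.inl i)) *
      ∏ k, G k (fun i => y (.inl i)) fun j => y (.inr (k, j))) =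
      ∑' u, (wt (schur M) Θa u : ℂ) * (f u * ∏ k, ∑' v, (fk M Θ Θa u v : ℂ) * G k u v) := by
  have B0 : 0 ≤ B := (norm_nonneg _).trans (hf 0)
  rw [tsum_ct h fun w y => (w : ℂ) * (f (fun i => y (.inl i)) *
    ∏ k, G k (fun i => y (.inl i)) fun j => y (.inr (k, j))),
    (summable_wt (B := B * B ^ Fintype.card κ) (fun x => (mul_pos (wt_pos _)
      (Finset.prod_pos fun _ _ => fk_pos _ _)).le) (summable_ct hT hB hM h) fun x => ?_).tsum_prod]
  · refine tsum_congr fun u => ?_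
    rw [← (Gw.hasSum_pi_prod (fun k v => (fk M Θ Θa u v : ℂ) * G k u v) fun k =>
      summable_wt (fun v => (fk_pos u v).le) (summable_fk hT hB hM h u) (hG k u)).tsum_eq,
      ← tsum_mul_left, ← tsum_mul_left]
    refine tsum_congr fun v => ?_
    simp only [Sum.elim_inl, Sum.elim_inr, Finset.prod_mul_distrib]
    push_cast
    ring
  · rw [norm_mul, norm_prod]
    refine mul_le_mul (hf _) ?_ (by positivity) B0
    exact (Finset.prod_le_prod (fun _ _ => norm_nonneg _) fun k _ => hG k _ _).trans (by simp)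

/-- **`MASTER+`, raw form**: three partition functions control the marginal in total variation -/
theorem mplus (hT : Tri lev Θ) (hB : Blk lev M) (hM : M.PosDef) (h : Sub Θ Θa) {η : ℝ}
    (h0 : 0 ≤ η) (h1 : η ≤ 1 / 2) (za : |∑' u, wt (schur M) Θa u - dt (schur M)| ≤ η * dt (schur M))
    (z : (1 - η) * dt M ≤ ∑' y, wt M Θ y)
    (zc : ∑' y, wt (cl Bool M) (ct Bool Θ) y ≤ (1 + η) * dt (cl Bool M)) :
    (Summable fun u => wt (schur M) Θa u * |fib M Θ Θa u - dt M.toBlocks₂₂|) ∧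
      ∑' u, wt (schur M) Θa u * |fib M Θ Θa u - dt M.toBlocks₂₂| ≤
        √(12 * η) * (dt M.toBlocks₂₂ * ∑' u, wt (schur M) Θa u) := by
  have e1 := hasSum_fib hT hB hM h
  have e2 := hasSum_fib_pow Bool hT hB hM h
  rw [dt_cl hM] at zc
  rw [dt_split hM] at z
  rw [Fintype.card_bool] at e2 zc
  obtain ⟨a1, a2⟩ := abs_le.1 za
  have d := dt_pos (pd_bb hM)
  have s := dt_pos (pd_schur hM)
  have := var_tv (fun u => (wt_pos u).le) (summable_sub hT hB hM h) e1.summable e2.summable d.le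
    (η := 4 * η) (by positivity) ?_ ?_
  · rwa [show 3 * (4 * η) = 12 * η by ring] at this
  · rw [e1.tsum_eq]
    refine le_trans ?_ z
    by_cases c : 0 ≤ 1 - 4 * η
    · refine (mul_le_mul_of_nonneg_left (mul_le_mul_of_nonneg_left
        (show _ ≤ (1 + η) * dt (schur M) by linarith) d.le) c).trans ?_
      nlinarith [mul_pos d s, mul_nonneg h0 (mul_pos d s).le, mul_nonneg h0 (mul_nonneg h0 (mul_pos d s).le)]
    · refine le_trans (mul_nonpos_of_nonpos_of_nonneg (by linarith) ?_) ?_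
      · exact mul_nonneg d.le (tsum_nonneg fun u => (wt_pos u).le)
      · exact mul_nonneg (by linarith) (mul_pos s d).le
  · rw [e2.tsum_eq]
    refine zc.trans (le_trans ?_ (mul_le_mul_of_nonneg_left (mul_le_mul_of_nonneg_left
      (show (1 - η) * dt (schur M) ≤ _ by linarith) (sq_nonneg _)) (by positivity)))
    have p : 0 ≤ dt (schur M) * dt M.toBlocks₂₂ ^ 2 := by positivity
    nlinarith [mul_nonneg p (mul_nonneg h0 (show 0 ≤ 1 - 2 * η by linarith))]

/-- `MASTER+` for test functions of the coordinates `a` -/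
theorem mplus_test (hT : Tri lev Θ) (hB : Blk lev M) (hM : M.PosDef) (h : Sub Θ Θa) {η : ℝ}
    (h0 : 0 ≤ η) (h1 : η ≤ 1 / 2) (za : |∑' u, wt (schur M) Θa u - dt (schur M)| ≤ η * dt (schur M))
    (z : (1 - η) * dt M ≤ ∑' y, wt M Θ y)
    (zc : ∑' y, wt (cl Bool M) (ct Bool Θ) y ≤ (1 + η) * dt (cl Bool M))
    {f : (a → ℤ) → ℂ} {B : ℝ} (hf : ∀ u, ‖f u‖ ≤ B) :
    ‖∑' y, (wt M Θ y : ℂ) * f (fun i => y (.inl i)) -
      dt M.toBlocks₂₂ * ∑' u, (wt (schur M) Θa u : ℂ) * f u‖ ≤ B * (√(12 * η) * (2 * dt M)) := by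
  obtain ⟨s, t⟩ := mplus hT hB hM h h0 h1 za z zc
  have B0 : 0 ≤ B := (norm_nonneg _).trans (hf 0)
  have s0 := summable_wt (fun u => (wt_pos u).le) (summable_sub hT hB hM h) hf
  have s1 := summable_wt (fun u => mul_nonneg (wt_pos u).le (fib_nonneg u))
    (hasSum_fib hT hB hM h).summable hf
  have e : ∑' y, (wt M Θ y : ℂ) * f (fun i => y (.inl i)) =
      ∑' u, ((wt (schur M) Θa u * fib M Θ Θa u : ℝ) : ℂ) * f u := by
    rw [tsum_fub hT hB hM h (F := fun y => f fun i => y (.inl i)) fun _ => hf _]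
    simp only [Sum.elim_inl, tsum_mul_right, fib, Complex.ofReal_mul, Complex.ofReal_tsum, mul_assoc]
  rw [e, ← tsum_mul_left, ← s1.tsum_sub (s0.mul_left _)]
  refine (tsum_of_norm_bounded (s.hasSum.mul_left B) fun u => ?_).trans
    (mul_le_mul_of_nonneg_left (t.trans (mul_le_mul_of_nonneg_left ?_ (by positivity))) B0)
  · rw [show ((wt (schur M) Θa u * fib M Θ Θa u : ℝ) : ℂ) * f u -
      dt M.toBlocks₂₂ * ((wt (schur M) Θa u : ℂ) * f u) =
      ((wt (schur M) Θa u * (fib M Θ Θa u - dt M.toBlocks₂₂) : ℝ) : ℂ) * f u by push_cast; ring,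
      norm_mul, Complex.norm_real, Real.norm_eq_abs, abs_mul, abs_of_pos (wt_pos u), mul_comm B]
    exact mul_le_mul_of_nonneg_left (hf u) (mul_nonneg (wt_pos u).le (abs_nonneg _))
  · have d := dt_pos (pd_bb hM)
    have s := dt_pos (pd_schur hM)
    rw [dt_split hM]
    nlinarith [(abs_le.1 za).2, mul_le_mul_of_nonneg_right h1 s.le]

end Crest.Agent.N49.Rw
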